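import Claimed.Agent.R213.Flow.Variational

set_option autoImplicit false

/-!
# Row 213, generic ODE part: flows of complete smooth fields (no compact support)

`X : E → E` is smooth on all of `E`.  If all its integral curves are global (`Complete X`), then
`flow X` is a jointly smooth one-parameter group, with uniqueness and the variational equation.
Completeness follows from a-priori bounds which hold for all damped fields `b • X`, `0 ≤ b ≤ 1`.
-/

namespace Claimed.Agent.R213.Flow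

open Set Filter Topology Metric
open scoped ContDiff NNReal

variable {E : Type*} [NormedAddCommGroup E] [NormedSpace ℝ E] [FiniteDimensional ℝ E]

/-- Uniqueness of integral curves of a field which is smooth on an open set. -/
theorem eqOn_of_sol_contDiffOn {U : Set E} (hU : IsOpen U) {X : E → E} (hX : ContDiffOn ℝ ∞ X U)
    {a b t₀ : ℝ} (h0 : t₀ ∈ Ioo a b) {α β : ℝ → E}
    (hα : ∀ t ∈ Ioo a b, α t ∈ U ∧ HasDerivAt α (X (α t)) t)
    (hβ : ∀ t ∈ Ioo a b, β t ∈ U ∧ HasDerivAt β (X (β t)) t) (h : α t₀ = β t₀) :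
    EqOn α β (Ioo a b) := by
  intro t ht
  -- the compact interval between `t₀` and `t`
  have hsub : Icc (min t₀ t) (max t₀ t) ⊆ Ioo a b := by
    intro s hs
    exact ⟨lt_of_lt_of_le (lt_min h0.1 ht.1) hs.1, lt_of_le_of_lt hs.2 (max_lt h0.2 ht.2)⟩
  have hαc : ContinuousOn α (Icc (min t₀ t) (max t₀ t)) := fun s hs =>
    (hα s (hsub hs)).2.continuousAt.continuousWithinAt
  have hβc : ContinuousOn β (Icc (min t₀ t) (max t₀ t)) := fun s hs =>
    (hβ s (hsub hs)).2.continuousAt.continuousWithinAt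
  have hC : IsCompact (α '' Icc (min t₀ t) (max t₀ t) ∪ β '' Icc (min t₀ t) (max t₀ t)) :=
    (isCompact_Icc.image_of_continuousOn hαc).union (isCompact_Icc.image_of_continuousOn hβc)
  have hCU : α '' Icc (min t₀ t) (max t₀ t) ∪ β '' Icc (min t₀ t) (max t₀ t) ⊆ U := by
    rintro _ (⟨s, hs, rfl⟩ | ⟨s, hs, rfl⟩)
    · exact (hα s (hsub hs)).1
    · exact (hβ s (hsub hs)).1
  obtain ⟨f, hf, hc, -, V, -, hCV, -, hfX⟩ := exists_cutoff_field hU hX hC hCU
  obtain ⟨B, K, -, hl⟩ := exists_bl hf hc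
  have hα' : ∀ s ∈ Icc (min t₀ t) (max t₀ t), HasDerivAt α (f (α s)) s := fun s hs => by
    rw [hfX (hCV (Or.inl ⟨s, hs, rfl⟩))]
    exact (hα s (hsub hs)).2
  have hβ' : ∀ s ∈ Icc (min t₀ t) (max t₀ t), HasDerivAt β (f (β s)) s := fun s hs => by
    rw [hfX (hCV (Or.inr ⟨s, hs, rfl⟩))]
    exact (hβ s (hsub hs)).2
  rcases le_total t₀ t with hle | hle
  · rw [min_eq_left hle, max_eq_right hle] at hαc hβc hα' hβ'
    exact ODE_solution_unique_of_mem_Icc_right (v := fun _ => f) (s := fun _ => univ) (K := K)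
      (fun _ _ => hl.lipschitzOnWith) hαc
      (fun s hs => (hα' s (Ico_subset_Icc_self hs)).hasDerivWithinAt) (fun _ _ => mem_univ _) hβc
      (fun s hs => (hβ' s (Ico_subset_Icc_self hs)).hasDerivWithinAt) (fun _ _ => mem_univ _) h
      ⟨hle, le_rfl⟩
  · rw [min_eq_right hle, max_eq_left hle] at hαc hβc hα' hβ'
    exact ODE_solution_unique_of_mem_Icc_left (v := fun _ => f) (s := fun _ => univ) (K := K)
      (fun _ _ => hl.lipschitzOnWith) hαc
      (fun s hs => (hα' s (Ioc_subset_Icc_self hs)).hasDerivWithinAt) (fun _ _ => mem_univ _) hβc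
      (fun s hs => (hβ' s (Ioc_subset_Icc_self hs)).hasDerivWithinAt) (fun _ _ => mem_univ _) h
      ⟨le_rfl, hle⟩

/-- Long-time local flow, explicit form: the local flow is the flow of a cut-off field `f` which
coincides with `X` on an open set `V` containing all the trajectories considered. -/
theorem exists_local_cutoff_flow {U : Set E} (hU : IsOpen U) {X : E → E}
    (hX : ContDiffOn ℝ ∞ X U)
    {γ : ℝ → E} {a b : ℝ} (ha : a ≤ 0) (hb : 0 ≤ b) (hγU : ∀ t ∈ Icc a b, γ t ∈ U)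
    (hγ : ∀ t ∈ Icc a b, HasDerivWithinAt γ (X (γ t)) (Icc a b) t) :
    ∃ (f : E → E) (V W : Set E) (ε : ℝ), ContDiff ℝ ∞ f ∧ HasCompactSupport f ∧ IsOpen V ∧
      V ⊆ U ∧ EqOn f X V ∧ 0 < ε ∧ IsOpen W ∧ γ 0 ∈ W ∧
      (∀ x ∈ W, ∀ t ∈ Ioo (a - ε) (b + ε), flow f t x ∈ V) ∧
      ∀ t ∈ Icc a b, flow f t (γ 0) = γ t := by
  have hcont : ContinuousOn γ (Icc a b) := fun t ht => (hγ t ht).continuousWithinAt
  have hC : IsCompact (γ '' Icc a b) := isCompact_Icc.image_of_continuousOn hcont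
  have hCU : γ '' Icc a b ⊆ U := by
    rintro _ ⟨t, ht, rfl⟩
    exact hγU t ht
  obtain ⟨f, hf, hc, -, V, hVo, hCV, hVU, hfX⟩ := exists_cutoff_field hU hX hC hCU
  have hγV : ∀ t ∈ Icc a b, γ t ∈ V := fun t ht => hCV ⟨t, ht, rfl⟩
  have heq : EqOn γ (fun t => flow f t (γ 0)) (Icc a b) := by
    refine eqOn_flow_Icc hf hc ha hb fun t ht => ?_
    rw [hfX (hγV t ht)]
    exact hγ t ht
  have hsm := contDiff_flow hf hc
  have hO : IsOpen {p : ℝ × E | flow f p.1 p.2 ∈ V} := hVo.preimage hsm.continuous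
  have hsub : Icc a b ×ˢ ({γ 0} : Set E) ⊆ {p : ℝ × E | flow f p.1 p.2 ∈ V} := by
    rintro ⟨t, x⟩ ⟨ht, hx⟩
    have hx' : x = γ 0 := hx
    show flow f t x ∈ V
    have h2 : γ t = flow f t (γ 0) := heq ht
    rw [hx', ← h2]
    exact hγV t ht
  obtain ⟨u, W, huo, hWo, hIu, hxW, huW⟩ :=
    generalized_tube_lemma isCompact_Icc isCompact_singleton hO hsub
  obtain ⟨ε, hε, hthick⟩ := isCompact_Icc.exists_thickening_subset_open huo hIu
  have hIoo : Ioo (a - ε) (b + ε) ⊆ u := by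
    intro t ht
    apply hthick
    rw [mem_thickening_iff]
    rcases lt_or_ge t a with h1 | h1
    · exact ⟨a, ⟨le_rfl, ha.trans hb⟩, by
        rw [Real.dist_eq, abs_lt]; constructor <;> linarith [ht.1]⟩
    · rcases le_or_gt t b with h2 | h2
      · exact ⟨t, ⟨h1, h2⟩, by simpa using hε⟩
      · exact ⟨b, ⟨ha.trans hb, le_rfl⟩, by
          rw [Real.dist_eq, abs_lt]; constructor <;> linarith [ht.2]⟩
  refine ⟨f, V, W, ε, hf, hc, hVo, hVU, hfX, hε, hWo, hxW rfl, ?_, fun t ht => (heq ht).symm⟩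
  intro x hx t ht
  exact huW (show (t, x) ∈ u ×ˢ W from ⟨hIoo ht, hx⟩)

/-- All integral curves of `X` are global. -/
def Complete (X : E → E) : Prop := ∀ x, ∃ α, IsSol X x α

variable {X : E → E}

omit [FiniteDimensional ℝ E] in
theorem Complete.isSol_flow (hc : Complete X) (x : E) : IsSol X x (fun t => flow X t x) := by
  have h := hc x
  have : (fun t => flow X t x) = h.choose := by
    funext t
    simp only [flow, dif_pos h]
  rw [this]
  exact h.choose_spec

omit [FiniteDimensional ℝ E] in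
theorem Complete.flow_zero (hc : Complete X) (x : E) : flow X 0 x = x := (hc.isSol_flow x).1

omit [FiniteDimensional ℝ E] in
theorem Complete.hasDerivAt_flow (hc : Complete X) (x : E) (t : ℝ) :
    HasDerivAt (fun t => flow X t x) (X (flow X t x)) t := (hc.isSol_flow x).2 t

/-- uniqueness around an arbitrary time `t₀`. -/
theorem Complete.eqOn_flow_sub (hc : Complete X) (hX : ContDiff ℝ ∞ X) {a b t₀ : ℝ}
    (h0 : t₀ ∈ Ioo a b) {α : ℝ → E} (hα : ∀ t ∈ Ioo a b, HasDerivAt α (X (α t)) t) :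
    EqOn α (fun t => flow X (t - t₀) (α t₀)) (Ioo a b) := by
  refine eqOn_of_sol_contDiffOn isOpen_univ hX.contDiffOn h0 (fun t ht => ⟨mem_univ _, hα t ht⟩)
    (fun t _ => ⟨mem_univ _, ?_⟩) ?_
  · exact (hc.hasDerivAt_flow (α t₀) (t - t₀)).comp_sub_const t t₀
  · simp [hc.flow_zero]

/-- uniqueness: a solution on an open interval around `0` is the flow curve. -/
theorem Complete.eqOn_flow (hc : Complete X) (hX : ContDiff ℝ ∞ X) {a b : ℝ}
    (h0 : (0 : ℝ) ∈ Ioo a b) {α : ℝ → E} (hα : ∀ t ∈ Ioo a b, HasDerivAt α (X (α t)) t) :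
    EqOn α (fun t => flow X t (α 0)) (Ioo a b) := by
  have := hc.eqOn_flow_sub hX h0 hα
  simpa using this

/-- uniqueness: a global solution is the flow curve. -/
theorem Complete.eq_flow (hc : Complete X) (hX : ContDiff ℝ ∞ X) {α : ℝ → E}
    (hα : ∀ t, HasDerivAt α (X (α t)) t) (t : ℝ) : α t = flow X t (α 0) :=
  hc.eqOn_flow hX (a := -(|t| + 1)) (b := |t| + 1)
    ⟨by linarith [abs_nonneg t], by linarith [abs_nonneg t]⟩ (fun s _ => hα s)
    ⟨by linarith [neg_abs_le t], by linarith [le_abs_self t]⟩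

/-- the group law. -/
theorem Complete.flow_add (hc : Complete X) (hX : ContDiff ℝ ∞ X) (s t : ℝ) (x : E) :
    flow X (s + t) x = flow X s (flow X t x) := by
  have h : ∀ r, HasDerivAt (fun r => flow X (r + t) x) (X (flow X (r + t) x)) r := fun r =>
    (hc.hasDerivAt_flow x (r + t)).comp_add_const r t
  have := hc.eq_flow hX h s
  simpa using this

theorem Complete.flow_neg_flow (hc : Complete X) (hX : ContDiff ℝ ∞ X) (t : ℝ) (x : E) :
    flow X (-t) (flow X t x) = x := by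
  rw [← hc.flow_add hX, neg_add_cancel, hc.flow_zero]

theorem Complete.flow_flow_neg (hc : Complete X) (hX : ContDiff ℝ ∞ X) (t : ℝ) (x : E) :
    flow X t (flow X (-t) x) = x := by
  rw [← hc.flow_add hX, add_neg_cancel, hc.flow_zero]

/-- Locally (in space, for bounded times) the flow of a complete field is the flow of a cut-off
field. -/
theorem Complete.exists_cutoff (hc : Complete X) (hX : ContDiff ℝ ∞ X) (x₀ : E) (T : ℝ)
    (hT : 0 ≤ T) :
    ∃ (f : E → E) (V W : Set E) (ε : ℝ), ContDiff ℝ ∞ f ∧ HasCompactSupport f ∧ IsOpen V ∧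
      EqOn f X V ∧ 0 < ε ∧ IsOpen W ∧ x₀ ∈ W ∧
      ∀ x ∈ W, ∀ t ∈ Ioo (-T - ε) (T + ε), flow f t x ∈ V ∧ flow X t x = flow f t x := by
  obtain ⟨f, V, W, ε, hf, hfc, hVo, -, hfX, hε, hWo, hxW, hV, -⟩ :=
    exists_local_cutoff_flow isOpen_univ hX.contDiffOn (γ := fun t => flow X t x₀)
      (a := -T) (b := T) (by linarith) hT (fun _ _ => mem_univ _)
      (fun t _ => (hc.hasDerivAt_flow x₀ t).hasDerivWithinAt)
  rw [hc.flow_zero] at hxW
  refine ⟨f, V, W, ε, hf, hfc, hVo, hfX, hε, hWo, hxW, fun x hx t ht => ⟨hV x hx t ht, ?_⟩⟩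
  have h := hc.eqOn_flow hX (a := -T - ε) (b := T + ε) ⟨by linarith, by linarith⟩
    (α := fun t => flow f t x) (fun s hs => by
      rw [← hfX (hV x hx s hs)]
      exact Flow.hasDerivAt_flow hf hfc x s) ht
  simp only [Flow.flow_zero hf hfc] at h
  exact h.symm

/-- **Smooth dependence** for complete smooth fields. -/
theorem Complete.contDiff_flow (hc : Complete X) (hX : ContDiff ℝ ∞ X) :
    ContDiff ℝ ∞ (fun p : ℝ × E => flow X p.1 p.2) := by
  rw [contDiff_iff_contDiffAt]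
  rintro ⟨t₀, x₀⟩
  obtain ⟨f, V, W, ε, hf, hfc, -, -, hε, hWo, hxW, h⟩ :=
    hc.exists_cutoff hX x₀ |t₀| (abs_nonneg _)
  refine (Flow.contDiff_flow hf hfc).contDiffAt.congr_of_eventuallyEq ?_
  have hopen : IsOpen (Ioo (-|t₀| - ε) (|t₀| + ε) ×ˢ W) := isOpen_Ioo.prod hWo
  have hmem : (t₀, x₀) ∈ Ioo (-|t₀| - ε) (|t₀| + ε) ×ˢ W :=
    ⟨⟨by linarith [neg_abs_le t₀], by linarith [le_abs_self t₀]⟩, hxW⟩
  filter_upwards [hopen.mem_nhds hmem] with p hp
  exact (h p.2 hp.2 p.1 hp.1).2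

theorem Complete.contDiff_flow_time (hc : Complete X) (hX : ContDiff ℝ ∞ X) (t : ℝ) :
    ContDiff ℝ ∞ (flow X t) :=
  (hc.contDiff_flow hX).comp (contDiff_const.prodMk contDiff_id)

/-- **Variational equation** for complete smooth fields, operator form. -/
theorem Complete.hasDerivAt_fderiv_flow (hc : Complete X) (hX : ContDiff ℝ ∞ X) (x : E) (t : ℝ) :
    HasDerivAt (fun s => fderiv ℝ (flow X s) x)
      ((fderiv ℝ X (flow X t x)).comp (fderiv ℝ (flow X t) x)) t := by
  obtain ⟨f, V, W, ε, hf, hfc, hVo, hfX, hε, hWo, hxW, h⟩ :=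
    hc.exists_cutoff hX x |t| (abs_nonneg _)
  have hd : ∀ s ∈ Ioo (-|t| - ε) (|t| + ε), fderiv ℝ (flow X s) x = fderiv ℝ (flow f s) x := by
    intro s hs
    apply Filter.EventuallyEq.fderiv_eq
    filter_upwards [hWo.mem_nhds hxW] with y hy
    exact (h y hy s hs).2
  have ht : t ∈ Ioo (-|t| - ε) (|t| + ε) :=
    ⟨by linarith [neg_abs_le t], by linarith [le_abs_self t]⟩
  have h1 := Flow.hasDerivAt_fderiv_flow hf hfc x t
  have h2 : fderiv ℝ f (flow f t x) = fderiv ℝ X (flow X t x) := by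
    rw [(h x hxW t ht).2]
    apply Filter.EventuallyEq.fderiv_eq
    filter_upwards [hVo.mem_nhds (h x hxW t ht).1] with y hy
    exact hfX hy
  rw [h2, ← hd t ht] at h1
  refine h1.congr_of_eventuallyEq ?_
  filter_upwards [isOpen_Ioo.mem_nhds ht] with s hs
  exact hd s hs

/-- **Variational equation** for complete smooth fields, applied to a vector. -/
theorem Complete.hasDerivAt_fderiv_flow_apply (hc : Complete X) (hX : ContDiff ℝ ∞ X) (x q : E)
    (t : ℝ) :
    HasDerivAt (fun s => fderiv ℝ (flow X s) x q)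
      (fderiv ℝ X (flow X t x) (fderiv ℝ (flow X t) x q)) t := by
  have := (hc.hasDerivAt_fderiv_flow hX x t).clm_apply (hasDerivAt_const t q)
  simpa using this

omit [FiniteDimensional ℝ E] in
theorem Complete.fderiv_flow_zero (hc : Complete X) (x : E) :
    fderiv ℝ (flow X 0) x = ContinuousLinearMap.id ℝ E := by
  have : flow X 0 = id := funext fun x => hc.flow_zero x
  rw [this]
  exact fderiv_id

/-- **Completeness from a-priori bounds.**  If for every initial point `x₀` and every `T > 0`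
there is a compact set containing, on `(-T,T)`, every solution starting at `x₀` of every damped
field `b • X` with `0 ≤ b ≤ 1`, then `X` is complete. -/
theorem complete_of_apriori (hX : ContDiff ℝ ∞ X)
    (hap : ∀ (x₀ : E) (T : ℝ), 0 < T → ∃ C : Set E, IsCompact C ∧
      ∀ (b : E → ℝ) (α : ℝ → E), (∀ x, 0 ≤ b x ∧ b x ≤ 1) → α 0 = x₀ →
        (∀ t ∈ Ioo (-T) T, HasDerivAt α (b (α t) • X (α t)) t) → ∀ t ∈ Ioo (-T) T, α t ∈ C) :
    Complete X := by
  have : ProperSpace E := FiniteDimensional.proper_real E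
  intro x₀
  -- a solution on `(-T,T)` for every `T`
  have hloc : ∀ T : ℝ, 0 < T → ∃ α : ℝ → E, α 0 = x₀ ∧
      ∀ t ∈ Ioo (-T) T, HasDerivAt α (X (α t)) t := by
    intro T hT
    obtain ⟨C, hC, hCap⟩ := hap x₀ T hT
    obtain ⟨R, hR⟩ := hC.isBounded.subset_closedBall 0
    obtain ⟨χ, hχ, hχc, h01, h1⟩ := exists_cutoff_ball E R
    have hf : ContDiff ℝ ∞ (fun x => χ x • X x) := hχ.smul hX
    have hfc : HasCompactSupport (fun x => χ x • X x) := hχc.smul_right
    refine ⟨fun t => flow (fun x => χ x • X x) t x₀, Flow.flow_zero hf hfc x₀, fun t ht => ?_⟩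
    have hmem := hCap χ (fun t => flow (fun x => χ x • X x) t x₀) h01 (Flow.flow_zero hf hfc x₀)
      (fun s _ => hasDerivAt_flow hf hfc x₀ s) t ht
    have h2 := hasDerivAt_flow hf hfc x₀ t
    have h3 : χ (flow (fun x => χ x • X x) t x₀) = 1 := by
      apply h1
      have := hR hmem
      rwa [mem_closedBall_zero_iff] at this
    simp only [h3, one_smul] at h2
    exact h2
  have hT : ∀ n : ℕ, (0 : ℝ) < (n : ℝ) + 1 := fun n ↦ by positivity
  choose β hβ0 hβ using fun n : ℕ ↦ hloc ((n : ℝ) + 1) (hT n)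
  have hmono : ∀ n m : ℕ, n ≤ m →
      Ioo (-((n : ℝ) + 1)) ((n : ℝ) + 1) ⊆ Ioo (-((m : ℝ) + 1)) ((m : ℝ) + 1) := by
    intro n m hnm
    have : (n : ℝ) ≤ m := Nat.cast_le.mpr hnm
    exact Ioo_subset_Ioo (by linarith) (by linarith)
  have heq : ∀ n m : ℕ, n ≤ m → EqOn (β n) (β m) (Ioo (-((n : ℝ) + 1)) ((n : ℝ) + 1)) := by
    intro n m hnm
    refine eqOn_of_sol_contDiffOn isOpen_univ hX.contDiffOn (t₀ := 0)
      ⟨by linarith [hT n], hT n⟩ (fun t ht => ⟨mem_univ _, hβ n t ht⟩)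
      (fun t ht => ⟨mem_univ _, hβ m t (hmono n m hnm ht)⟩) ?_
    rw [hβ0, hβ0]
  have hfl : ∀ t : ℝ, t ∈ Ioo (-((Nat.floor |t| : ℝ) + 1)) ((Nat.floor |t| : ℝ) + 1) := by
    intro t
    have h2 := abs_lt.mp (Nat.lt_floor_add_one |t|)
    exact ⟨h2.1, h2.2⟩
  have hle : ∀ (n : ℕ) (t : ℝ), t ∈ Ioo (-((n : ℝ) + 1)) ((n : ℝ) + 1) → Nat.floor |t| ≤ n := by
    intro n t ht
    have h : |t| < (n : ℝ) + 1 := abs_lt.mpr ⟨ht.1, ht.2⟩
    have h2 : Nat.floor |t| < n + 1 := by
      rw [Nat.floor_lt (abs_nonneg t)]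
      push_cast
      exact h
    omega
  have hE : ∀ n : ℕ, EqOn (fun t => β (Nat.floor |t|) t) (β n)
      (Ioo (-((n : ℝ) + 1)) ((n : ℝ) + 1)) := by
    intro n t ht
    exact heq _ _ (hle n t ht) (hfl t)
  refine ⟨fun t => β (Nat.floor |t|) t, ?_, fun t => ?_⟩
  · exact hβ0 _
  · have hev : (fun s => β (Nat.floor |s|) s) =ᶠ[𝓝 t] β (Nat.floor |t|) :=
      (hE (Nat.floor |t|)).eventuallyEq_of_mem (isOpen_Ioo.mem_nhds (hfl t))
    exact (hβ _ t (hfl t)).congr_of_eventuallyEq hev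

end Claimed.Agent.R213.Flow
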