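import Mathlib

set_option autoImplicit false

/-!
# Row 213, GEOMETRY layer, generic ODE part: the global flow of a bounded Lipschitz field

Pure Mathlib.  `flow f t x` is the value at time `t` of the global solution of `α' = f α`,
`α 0 = x` (junk value `x` if there is none).  For a bounded Lipschitz field on a complete space
we prove existence, uniqueness, the group law, a two-sided Gronwall inequality and the Lipschitz
dependence on the initial point.
-/

namespace Claimed.Agent.R213.Flow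

open Set Filter Topology Metric
open scoped ContDiff NNReal

variable {E : Type*} [NormedAddCommGroup E] [NormedSpace ℝ E]

/-- `α` is a global solution of `α' = f α` with `α 0 = x`. -/
def IsSol (f : E → E) (x : E) (α : ℝ → E) : Prop :=
  α 0 = x ∧ ∀ t, HasDerivAt α (f (α t)) t

open Classical in
/-- The global flow of the field `f` (junk value `x` if there is no global solution). -/
noncomputable def flow (f : E → E) (t : ℝ) (x : E) : E :=
  if h : ∃ α, IsSol f x α then h.choose t else x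

/-- a bounded Lipschitz field has a solution on `(-T,T)`. -/
theorem exists_sol_Ioo [CompleteSpace E] {f : E → E} {B K : ℝ≥0} (hb : ∀ x, ‖f x‖ ≤ B)
    (hl : LipschitzWith K f) (x0 : E) (T : ℝ) (hT : 0 < T) :
    ∃ α : ℝ → E, α 0 = x0 ∧ ∀ t ∈ Ioo (-T) T, HasDerivAt α (f (α t)) t := by
  have h0 : (0 : ℝ) ∈ Icc (-T) T := ⟨by linarith, hT.le⟩
  have hPL : IsPicardLindelof (fun _ ↦ f) (tmin := -T) (tmax := T) ⟨0, h0⟩ x0
      (B * ⟨T, hT.le⟩) 0 B K := by
    apply IsPicardLindelof.of_time_independent (fun x _ => hb x) hl.lipschitzOnWith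
    simp only [sub_zero, zero_sub, neg_neg, max_self, NNReal.coe_zero]
    exact le_of_eq rfl
  obtain ⟨α, hα0, hα⟩ := hPL.exists_eq_forall_mem_Icc_hasDerivWithinAt₀
  refine ⟨α, hα0, fun t ht => ?_⟩
  exact (hα t (Ioo_subset_Icc_self ht)).hasDerivAt (Icc_mem_nhds ht.1 ht.2)

/-- uniqueness on an open interval containing the initial time `0`. -/
theorem eqOn_Ioo_of_sol {f : E → E} {K : ℝ≥0} (hl : LipschitzWith K f) {a b : ℝ}
    (h0 : (0 : ℝ) ∈ Ioo a b) {α β : ℝ → E}
    (hα : ∀ t ∈ Ioo a b, HasDerivAt α (f (α t)) t)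
    (hβ : ∀ t ∈ Ioo a b, HasDerivAt β (f (β t)) t) (h : α 0 = β 0) : EqOn α β (Ioo a b) :=
  ODE_solution_unique_of_mem_Ioo (v := fun _ => f) (s := fun _ => univ) (K := K) (t₀ := 0)
    (fun _ _ => hl.lipschitzOnWith) h0 (fun t ht => ⟨hα t ht, mem_univ _⟩)
    (fun t ht => ⟨hβ t ht, mem_univ _⟩) h

/-- a bounded Lipschitz field has a global solution through every point. -/
theorem exists_isSol [CompleteSpace E] {f : E → E} {B K : ℝ≥0} (hb : ∀ x, ‖f x‖ ≤ B)
    (hl : LipschitzWith K f) (x : E) : ∃ α, IsSol f x α := by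
  have hT : ∀ n : ℕ, (0 : ℝ) < (n : ℝ) + 1 := fun n ↦ by positivity
  choose β hβ0 hβ using fun n : ℕ ↦ exists_sol_Ioo hb hl x ((n : ℝ) + 1) (hT n)
  have hmono : ∀ n m : ℕ, n ≤ m →
      Ioo (-((n : ℝ) + 1)) ((n : ℝ) + 1) ⊆ Ioo (-((m : ℝ) + 1)) ((m : ℝ) + 1) := by
    intro n m hnm
    have : (n : ℝ) ≤ m := Nat.cast_le.mpr hnm
    exact Ioo_subset_Ioo (by linarith) (by linarith)
  have heq : ∀ n m : ℕ, n ≤ m → EqOn (β n) (β m) (Ioo (-((n : ℝ) + 1)) ((n : ℝ) + 1)) := by
    intro n m hnm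
    refine eqOn_Ioo_of_sol hl ⟨by linarith [hT n], hT n⟩ (hβ n)
      (fun t ht => hβ m t (hmono n m hnm ht)) ?_
    rw [hβ0, hβ0]
  have hfl : ∀ t : ℝ, t ∈ Ioo (-((Nat.floor |t| : ℝ) + 1)) ((Nat.floor |t| : ℝ) + 1) := by
    intro t
    have h2 := abs_lt.mp (Nat.lt_floor_add_one |t|)
    exact ⟨h2.1, h2.2⟩
  have hle : ∀ (n : ℕ) (t : ℝ), t ∈ Ioo (-((n : ℝ) + 1)) ((n : ℝ) + 1) → Nat.floor |t| ≤ n := by
    intro n t ht
    have h : |t| < (n : ℝ) + 1 := abs_lt.mpr ⟨ht.1, ht.2⟩
    have h2 : Nat.floor |t| < n + 1 := by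
      rw [Nat.floor_lt (abs_nonneg t)]
      push_cast
      exact h
    omega
  have hE : ∀ n : ℕ, EqOn (fun t => β (Nat.floor |t|) t) (β n)
      (Ioo (-((n : ℝ) + 1)) ((n : ℝ) + 1)) := by
    intro n t ht
    exact heq _ _ (hle n t ht) (hfl t)
  refine ⟨fun t => β (Nat.floor |t|) t, ?_, fun t => ?_⟩
  · exact hβ0 _
  · have hev : (fun s => β (Nat.floor |s|) s) =ᶠ[𝓝 t] β (Nat.floor |t|) :=
      (hE (Nat.floor |t|)).eventuallyEq_of_mem (isOpen_Ioo.mem_nhds (hfl t))
    exact (hβ _ t (hfl t)).congr_of_eventuallyEq hev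

section BL

variable [CompleteSpace E] {f : E → E} {B K : ℝ≥0}

/-- the flow curve is a global solution. -/
theorem isSol_flow (hb : ∀ x, ‖f x‖ ≤ B) (hl : LipschitzWith K f) (x : E) :
    IsSol f x (fun t => flow f t x) := by
  have h := exists_isSol hb hl x
  have : (fun t => flow f t x) = h.choose := by
    funext t
    simp only [flow, dif_pos h]
  rw [this]
  exact h.choose_spec

theorem flow_zero_of_bl (hb : ∀ x, ‖f x‖ ≤ B) (hl : LipschitzWith K f) (x : E) :
    flow f 0 x = x := (isSol_flow hb hl x).1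

theorem hasDerivAt_flow_of_bl (hb : ∀ x, ‖f x‖ ≤ B) (hl : LipschitzWith K f) (x : E) (t : ℝ) :
    HasDerivAt (fun t => flow f t x) (f (flow f t x)) t := (isSol_flow hb hl x).2 t

/-- uniqueness: a solution on an open interval around `0` is the flow curve. -/
theorem eqOn_flow_of_bl (hb : ∀ x, ‖f x‖ ≤ B) (hl : LipschitzWith K f) {a b : ℝ}
    (h0 : (0 : ℝ) ∈ Ioo a b) {α : ℝ → E} (hα : ∀ t ∈ Ioo a b, HasDerivAt α (f (α t)) t) :
    EqOn α (fun t => flow f t (α 0)) (Ioo a b) :=
  eqOn_Ioo_of_sol hl h0 hα (fun t _ => hasDerivAt_flow_of_bl hb hl _ t)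
    (flow_zero_of_bl hb hl _).symm

/-- uniqueness: a global solution is the flow curve. -/
theorem eq_flow_of_bl (hb : ∀ x, ‖f x‖ ≤ B) (hl : LipschitzWith K f)
    {α : ℝ → E} (hα : ∀ t, HasDerivAt α (f (α t)) t) (t : ℝ) : α t = flow f t (α 0) :=
  eqOn_flow_of_bl hb hl (a := -(|t| + 1)) (b := |t| + 1)
    ⟨by linarith [abs_nonneg t], by linarith [abs_nonneg t]⟩ (fun s _ => hα s)
    ⟨by linarith [neg_abs_le t], by linarith [le_abs_self t]⟩

/-- the group law. -/
theorem flow_add_of_bl (hb : ∀ x, ‖f x‖ ≤ B) (hl : LipschitzWith K f) (s t : ℝ) (x : E) :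
    flow f (s + t) x = flow f s (flow f t x) := by
  have h : ∀ r, HasDerivAt (fun r => flow f (r + t) x) (f (flow f (r + t) x)) r := by
    intro r
    exact (hasDerivAt_flow_of_bl hb hl x (r + t)).comp_add_const r t
  have := eq_flow_of_bl hb hl h s
  simpa using this

end BL

/-- Two-sided Gronwall inequality on `[-T,T]`. -/
theorem norm_le_gronwallBound_abs {u u' : ℝ → E} {K ε T : ℝ}
    (hu : ∀ t ∈ Icc (-T) T, HasDerivAt u (u' t) t)
    (hb : ∀ t ∈ Icc (-T) T, ‖u' t‖ ≤ K * ‖u t‖ + ε) :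
    ∀ t ∈ Icc (-T) T, ‖u t‖ ≤ gronwallBound ‖u 0‖ K ε |t| := by
  intro t ht
  rcases le_total 0 t with h | h
  · have hsub : Icc 0 t ⊆ Icc (-T) T := Icc_subset_Icc (by linarith [ht.2]) ht.2
    have := norm_le_gronwallBound_of_norm_deriv_right_le (f := u) (f' := u') (δ := ‖u 0‖)
      (K := K) (ε := ε) (a := 0) (b := t)
      (fun s hs => (hu s (hsub hs)).continuousAt.continuousWithinAt)
      (fun s hs => (hu s (hsub (Ico_subset_Icc_self hs))).hasDerivWithinAt) le_rfl
      (fun s hs => hb s (hsub (Ico_subset_Icc_self hs))) t ⟨h, le_rfl⟩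
    simpa [abs_of_nonneg h] using this
  · have hsub : ∀ s ∈ Icc 0 (-t), -s ∈ Icc (-T) T := by
      intro s hs
      exact ⟨by linarith [hs.2, ht.1], by linarith [hs.1, ht.1]⟩
    have hd : ∀ s ∈ Icc 0 (-t), HasDerivAt (fun s => u (-s)) (-(u' (-s))) s := by
      intro s hs
      have := (hu (-s) (hsub s hs)).scomp s (hasDerivAt_neg s)
      simpa [Function.comp_def] using this
    have := norm_le_gronwallBound_of_norm_deriv_right_le (f := fun s => u (-s))
      (f' := fun s => -(u' (-s))) (δ := ‖u 0‖)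
      (K := K) (ε := ε) (a := 0) (b := -t)
      (fun s hs => (hd s hs).continuousAt.continuousWithinAt)
      (fun s hs => (hd s (Ico_subset_Icc_self hs)).hasDerivWithinAt) (by simp)
      (fun s hs => by
        rw [norm_neg]
        exact hb _ (hsub s (Ico_subset_Icc_self hs))) (-t) ⟨by linarith, le_rfl⟩
    simpa [abs_of_nonpos h] using this

/-- Lipschitz dependence of the flow on the initial point. -/
theorem norm_flow_sub_le [CompleteSpace E] {f : E → E} {B K : ℝ≥0} (hb : ∀ x, ‖f x‖ ≤ B)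
    (hl : LipschitzWith K f) (t : ℝ) (x y : E) :
    ‖flow f t x - flow f t y‖ ≤ Real.exp (K * |t|) * ‖x - y‖ := by
  have h := norm_le_gronwallBound_abs (u := fun t => flow f t x - flow f t y)
    (u' := fun t => f (flow f t x) - f (flow f t y)) (K := K) (ε := 0) (T := |t|)
    (fun s _ => (hasDerivAt_flow_of_bl hb hl x s).sub (hasDerivAt_flow_of_bl hb hl y s))
    (fun s _ => by
      rw [add_zero]
      exact hl.norm_sub_le _ _) t ⟨neg_abs_le t, le_abs_self t⟩
  rw [gronwallBound_ε0] at h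
  simp only [flow_zero_of_bl hb hl] at h
  linarith

/-- speed bound. -/
theorem norm_flow_sub_time_le [CompleteSpace E] {f : E → E} {B K : ℝ≥0} (hb : ∀ x, ‖f x‖ ≤ B)
    (hl : LipschitzWith K f) (s t : ℝ) (x : E) :
    ‖flow f s x - flow f t x‖ ≤ B * |s - t| := by
  have := Convex.norm_image_sub_le_of_norm_hasDerivWithin_le (f := fun t => flow f t x)
    (f' := fun t => f (flow f t x)) (s := univ) (C := B) (x := t) (y := s)
    (fun r _ => (hasDerivAt_flow_of_bl hb hl x r).hasDerivWithinAt) (fun r _ => hb _)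
    convex_univ (mem_univ _) (mem_univ _)
  simpa using this

/-- joint continuity of the flow. -/
theorem continuous_flow_of_bl [CompleteSpace E] {f : E → E} {B K : ℝ≥0} (hb : ∀ x, ‖f x‖ ≤ B)
    (hl : LipschitzWith K f) : Continuous (fun p : ℝ × E => flow f p.1 p.2) := by
  rw [continuous_iff_continuousAt]
  rintro ⟨t, x⟩
  rw [ContinuousAt, tendsto_iff_norm_sub_tendsto_zero]
  have hbound : ∀ p : ℝ × E, ‖flow f p.1 p.2 - flow f t x‖ ≤
      Real.exp (K * |p.1|) * ‖p.2 - x‖ + B * |p.1 - t| := by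
    intro p
    calc ‖flow f p.1 p.2 - flow f t x‖
        = ‖(flow f p.1 p.2 - flow f p.1 x) + (flow f p.1 x - flow f t x)‖ := by
          congr 1; abel
      _ ≤ _ := (norm_add_le _ _).trans
          (add_le_add (norm_flow_sub_le hb hl _ _ _) (norm_flow_sub_time_le hb hl _ _ _))
  have hlim : Tendsto (fun p : ℝ × E => Real.exp (K * |p.1|) * ‖p.2 - x‖ + B * |p.1 - t|)
      (𝓝 (t, x)) (𝓝 (Real.exp (K * |t|) * ‖x - x‖ + B * |t - t|)) := by
    apply Continuous.tendsto (f := fun p : ℝ × E =>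
      Real.exp (K * |p.1|) * ‖p.2 - x‖ + B * |p.1 - t|)
    fun_prop
  simp only [sub_self, norm_zero, mul_zero, abs_zero, add_zero] at hlim
  exact squeeze_zero (fun p => norm_nonneg _) hbound hlim

end Claimed.Agent.R213.Flow
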