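import Claimed.Agent.R213.Flow.Prolong

set_option autoImplicit false

/-!
# Row 213, generic ODE part: the `C¹` step
-/

namespace Claimed.Agent.R213.Flow

open Set Filter Topology Metric
open scoped ContDiff NNReal

variable {E : Type*} [NormedAddCommGroup E] [NormedSpace ℝ E] [FiniteDimensional ℝ E]
  {f : E → E} {χ : (E →L[ℝ] E) → ℝ}

theorem hasDerivAt_flow_prol (hf : ContDiff ℝ ∞ f) (hc : HasCompactSupport f)
    (hχ : ContDiff ℝ ∞ χ) (hχc : HasCompactSupport χ) (p : E × (E →L[ℝ] E)) (t : ℝ) :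
    HasDerivAt (fun t => flow (prol f χ) t p) (prol f χ (flow (prol f χ) t p)) t := by
  have : CompleteSpace E := FiniteDimensional.complete ℝ E
  obtain ⟨B, K, hb, hl⟩ := exists_bl (contDiff_prol hf hχ) (hasCompactSupport_prol hc hχc)
  exact hasDerivAt_flow_of_bl hb hl p t

theorem flow_prol_zero (hf : ContDiff ℝ ∞ f) (hc : HasCompactSupport f)
    (hχ : ContDiff ℝ ∞ χ) (hχc : HasCompactSupport χ) (p : E × (E →L[ℝ] E)) :
    flow (prol f χ) 0 p = p := by
  have : CompleteSpace E := FiniteDimensional.complete ℝ E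
  obtain ⟨B, K, hb, hl⟩ := exists_bl (contDiff_prol hf hχ) (hasCompactSupport_prol hc hχc)
  exact flow_zero_of_bl hb hl p

theorem hasDerivAt_flow_prol_fst (hf : ContDiff ℝ ∞ f) (hc : HasCompactSupport f)
    (hχ : ContDiff ℝ ∞ χ) (hχc : HasCompactSupport χ) (p : E × (E →L[ℝ] E)) (t : ℝ) :
    HasDerivAt (fun t => (flow (prol f χ) t p).1)
      (χ (flow (prol f χ) t p).2 • f (flow (prol f χ) t p).1) t :=
  (ContinuousLinearMap.fst ℝ E (E →L[ℝ] E)).hasFDerivAt.comp_hasDerivAt t
    (hasDerivAt_flow_prol hf hc hχ hχc p t)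

theorem hasDerivAt_flow_prol_snd (hf : ContDiff ℝ ∞ f) (hc : HasCompactSupport f)
    (hχ : ContDiff ℝ ∞ χ) (hχc : HasCompactSupport χ) (p : E × (E →L[ℝ] E)) (t : ℝ) :
    HasDerivAt (fun t => (flow (prol f χ) t p).2)
      (χ (flow (prol f χ) t p).2 •
        (fderiv ℝ f (flow (prol f χ) t p).1).comp (flow (prol f χ) t p).2) t :=
  (ContinuousLinearMap.snd ℝ E (E →L[ℝ] E)).hasFDerivAt.comp_hasDerivAt t
    (hasDerivAt_flow_prol hf hc hχ hχc p t)

/-- a-priori bound for the linear component of the prolonged flow. -/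
theorem norm_flow_prol_snd_le (hf : ContDiff ℝ ∞ f) (hc : HasCompactSupport f)
    (hχ : ContDiff ℝ ∞ χ) (hχc : HasCompactSupport χ) (h01 : ∀ v, 0 ≤ χ v ∧ χ v ≤ 1)
    {K : ℝ≥0} (hl : LipschitzWith K f) (p : E × (E →L[ℝ] E)) (t : ℝ) :
    ‖(flow (prol f χ) t p).2‖ ≤ Real.exp (K * |t|) * ‖p.2‖ := by
  have h := norm_le_gronwallBound_abs (u := fun t => (flow (prol f χ) t p).2)
    (u' := fun t => χ (flow (prol f χ) t p).2 •
        (fderiv ℝ f (flow (prol f χ) t p).1).comp (flow (prol f χ) t p).2)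
    (K := K) (ε := 0) (T := |t|)
    (fun s _ => hasDerivAt_flow_prol_snd hf hc hχ hχc p s)
    (fun s _ => by
      rw [add_zero, norm_smul, Real.norm_eq_abs, abs_of_nonneg (h01 _).1]
      calc χ (flow (prol f χ) s p).2 *
            ‖(fderiv ℝ f (flow (prol f χ) s p).1).comp (flow (prol f χ) s p).2‖
          ≤ 1 * (‖fderiv ℝ f (flow (prol f χ) s p).1‖ * ‖(flow (prol f χ) s p).2‖) :=
            mul_le_mul (h01 _).2 (ContinuousLinearMap.opNorm_comp_le _ _) (norm_nonneg _)
              zero_le_one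
        _ ≤ K * ‖(flow (prol f χ) s p).2‖ := by
            rw [one_mul]
            exact mul_le_mul_of_nonneg_right (norm_fderiv_le_of_lipschitz ℝ hl) (norm_nonneg _))
    t ⟨neg_abs_le t, le_abs_self t⟩
  rw [gronwallBound_ε0] at h
  simp only [flow_prol_zero hf hc hχ hχc] at h
  linarith

/-- on `[-T,T]` the cut-off is not active along the prolonged flow started at `(x, id)`. -/
theorem cutoff_flow_prol_eq_one (hf : ContDiff ℝ ∞ f) (hc : HasCompactSupport f)
    (hχ : ContDiff ℝ ∞ χ) (hχc : HasCompactSupport χ) (h01 : ∀ v, 0 ≤ χ v ∧ χ v ≤ 1)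
    {K : ℝ≥0} (hl : LipschitzWith K f) {T : ℝ} (h1 : ∀ v, ‖v‖ ≤ Real.exp (K * T) → χ v = 1)
    (x : E) {t : ℝ} (ht : |t| ≤ T) :
    χ (flow (prol f χ) t (x, ContinuousLinearMap.id ℝ E)).2 = 1 := by
  apply h1
  refine (norm_flow_prol_snd_le hf hc hχ hχc h01 hl _ t).trans ?_
  calc Real.exp (K * |t|) * ‖ContinuousLinearMap.id ℝ E‖ ≤ Real.exp (K * T) * 1 :=
        mul_le_mul (Real.exp_le_exp.2 (mul_le_mul_of_nonneg_left ht K.2))
          ContinuousLinearMap.norm_id_le (norm_nonneg _) (Real.exp_pos _).le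
    _ = _ := mul_one _

/-- the first component of the prolonged flow is the flow of `f`. -/
theorem flow_prol_fst (hf : ContDiff ℝ ∞ f) (hc : HasCompactSupport f)
    (hχ : ContDiff ℝ ∞ χ) (hχc : HasCompactSupport χ) (h01 : ∀ v, 0 ≤ χ v ∧ χ v ≤ 1)
    {K : ℝ≥0} (hl : LipschitzWith K f) {T : ℝ} (h1 : ∀ v, ‖v‖ ≤ Real.exp (K * T) → χ v = 1)
    (x : E) {t : ℝ} (ht : |t| < T) :
    (flow (prol f χ) t (x, ContinuousLinearMap.id ℝ E)).1 = flow f t x := by
  have : CompleteSpace E := FiniteDimensional.complete ℝ E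
  obtain ⟨B, K', hb, hl'⟩ := exists_bl hf hc
  have hT : 0 < T := (abs_nonneg t).trans_lt ht
  have h := eqOn_flow_of_bl hb hl' (a := -T) (b := T) ⟨by linarith, hT⟩
    (α := fun t => (flow (prol f χ) t (x, ContinuousLinearMap.id ℝ E)).1)
    (fun s hs => by
      have h2 := hasDerivAt_flow_prol_fst hf hc hχ hχc (x, ContinuousLinearMap.id ℝ E) s
      rwa [cutoff_flow_prol_eq_one hf hc hχ hχc h01 hl h1 x (abs_le.2 ⟨hs.1.le, hs.2.le⟩),
        one_smul] at h2) (abs_lt.1 ht)
  simpa [flow_prol_zero hf hc hχ hχc] using h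

/-- the second component of the prolonged flow solves the linearised equation. -/
theorem hasDerivAt_flow_prol_snd' (hf : ContDiff ℝ ∞ f) (hc : HasCompactSupport f)
    (hχ : ContDiff ℝ ∞ χ) (hχc : HasCompactSupport χ) (h01 : ∀ v, 0 ≤ χ v ∧ χ v ≤ 1)
    {K : ℝ≥0} (hl : LipschitzWith K f) {T : ℝ} (h1 : ∀ v, ‖v‖ ≤ Real.exp (K * T) → χ v = 1)
    (x : E) {t : ℝ} (ht : |t| < T) :
    HasDerivAt (fun t => (flow (prol f χ) t (x, ContinuousLinearMap.id ℝ E)).2)
      ((fderiv ℝ f (flow f t x)).comp (flow (prol f χ) t (x, ContinuousLinearMap.id ℝ E)).2) t := by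
  have h2 := hasDerivAt_flow_prol_snd hf hc hχ hχc (x, ContinuousLinearMap.id ℝ E) t
  rwa [cutoff_flow_prol_eq_one hf hc hχ hχc h01 hl h1 x ht.le, one_smul,
    flow_prol_fst hf hc hχ hχc h01 hl h1 x ht] at h2

/-- **The `C¹` step**: the spatial derivative of the flow is the linear component of the
prolonged flow. -/
theorem hasFDerivAt_flow (hf : ContDiff ℝ ∞ f) (hc : HasCompactSupport f)
    (hχ : ContDiff ℝ ∞ χ) (hχc : HasCompactSupport χ) (h01 : ∀ v, 0 ≤ χ v ∧ χ v ≤ 1)
    {K : ℝ≥0} (hl : LipschitzWith K f) {T : ℝ} (h1 : ∀ v, ‖v‖ ≤ Real.exp (K * T) → χ v = 1)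
    (x : E) {t : ℝ} (ht : |t| < T) :
    HasFDerivAt (flow f t) (flow (prol f χ) t (x, ContinuousLinearMap.id ℝ E)).2 x := by
  have : CompleteSpace E := FiniteDimensional.complete ℝ E
  obtain ⟨B, K', hb, -⟩ := exists_bl hf hc
  have hdf : ContDiff ℝ ∞ (fderiv ℝ f) := (contDiff_infty_iff_fderiv.1 hf).2
  obtain ⟨-, M, -, hM⟩ := exists_bl hdf (hc.fderiv ℝ)
  have hdiff : Differentiable ℝ f := hf.differentiable (by simp)
  set A : ℝ → E →L[ℝ] E := fun t => (flow (prol f χ) t (x, ContinuousLinearMap.id ℝ E)).2 with hA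
  have hA0 : A 0 = ContinuousLinearMap.id ℝ E := by
    simp only [hA, flow_prol_zero hf hc hχ hχc]
  -- the quadratic estimate
  have key : ∀ h : E, ‖flow f t (x + h) - flow f t x - A t h‖ ≤
      (M * Real.exp (K * T) ^ 2 * gronwallBound 0 K 1 |t|) * ‖h‖ ^ 2 := by
    intro h
    have hg := norm_le_gronwallBound_abs
      (u := fun s => flow f s (x + h) - flow f s x - A s h)
      (u' := fun s => f (flow f s (x + h)) - f (flow f s x)
        - ((fderiv ℝ f (flow f s x)).comp (A s)) h)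
      (K := K) (ε := M * (Real.exp (K * T) * ‖h‖) ^ 2) (T := |t|)
      (fun s hs => by
        have hs' : |s| < T := (abs_le.2 hs).trans_lt ht
        have h3 := hasDerivAt_flow_prol_snd' hf hc hχ hχc h01 hl h1 x hs'
        have h4 : HasDerivAt (fun s => A s h) (((fderiv ℝ f (flow f s x)).comp (A s)) h) s := by
          have := h3.clm_apply (hasDerivAt_const s h)
          simpa using this
        exact ((hasDerivAt_flow_of_bl hb hl (x + h) s).sub (hasDerivAt_flow_of_bl hb hl x s)).sub h4)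
      (fun s hs => by
        have hs' : |s| ≤ T := (abs_le.2 hs).trans ht.le
        have e : f (flow f s (x + h)) - f (flow f s x)
            - ((fderiv ℝ f (flow f s x)).comp (A s)) h
            = fderiv ℝ f (flow f s x) (flow f s (x + h) - flow f s x - A s h)
              + (f (flow f s (x + h)) - f (flow f s x)
                - fderiv ℝ f (flow f s x) (flow f s (x + h) - flow f s x)) := by
          simp only [ContinuousLinearMap.comp_apply, map_sub]
          abel
        rw [e]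
        refine (norm_add_le _ _).trans (add_le_add ?_ ?_)
        · exact (ContinuousLinearMap.le_opNorm _ _).trans
            (mul_le_mul_of_nonneg_right (norm_fderiv_le_of_lipschitz ℝ hl) (norm_nonneg _))
        · refine (norm_taylor_two_le hdiff hM _ _).trans ?_
          refine mul_le_mul_of_nonneg_left ?_ M.2
          refine pow_le_pow_left₀ (norm_nonneg _) ?_ 2
          refine (norm_flow_sub_le hb hl s (x + h) x).trans ?_
          rw [add_sub_cancel_left]
          exact mul_le_mul_of_nonneg_right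
            (Real.exp_le_exp.2 (mul_le_mul_of_nonneg_left hs' K.2)) (norm_nonneg _))
      t ⟨neg_abs_le t, le_abs_self t⟩
    have h0 : ‖flow f 0 (x + h) - flow f 0 x - A 0 h‖ = 0 := by
      rw [flow_zero_of_bl hb hl, flow_zero_of_bl hb hl, hA0]
      simp
    simp only [h0] at hg
    rw [gronwallBound_zero_eq_mul] at hg
    calc _ ≤ _ := hg
      _ = _ := by ring
  rw [hasFDerivAt_iff_isLittleO_nhds_zero]
  have hO : (fun h : E => flow f t (x + h) - flow f t x - A t h) =O[𝓝 0] fun h : E => ‖h‖ ^ 2 := by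
    apply Asymptotics.IsBigO.of_bound (M * Real.exp (K * T) ^ 2 * gronwallBound 0 K 1 |t|)
    filter_upwards with h
    rw [Real.norm_eq_abs, abs_of_nonneg (pow_nonneg (norm_nonneg h) 2)]
    exact key h
  exact hO.trans_isLittleO (Asymptotics.isLittleO_norm_pow_id one_lt_two)

end Claimed.Agent.R213.Flow
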