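import Claimed.Agent.R213.Flow.Smooth

set_option autoImplicit false

/-!
# Row 213, GEOMETRY layer, generic ODE part: smooth dependence of flows (INTERFACE)

`E` is a finite dimensional real normed space, `f : E → E` a smooth compactly supported field.
`flow f : ℝ → E → E` (defined in `Basic.lean`) is its global flow.  Everything here is proved
(pure Mathlib, no `sorry`).
-/

namespace Claimed.Agent.R213.Flow

open Set Filter Topology Metric
open scoped ContDiff NNReal

variable {E : Type*} [NormedAddCommGroup E] [NormedSpace ℝ E] [FiniteDimensional ℝ E]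
  {f : E → E}

theorem flow_zero (hf : ContDiff ℝ ∞ f) (hc : HasCompactSupport f) (x : E) : flow f 0 x = x := by
  have : CompleteSpace E := FiniteDimensional.complete ℝ E
  obtain ⟨B, K, hb, hl⟩ := exists_bl hf hc
  exact flow_zero_of_bl hb hl x

theorem hasDerivAt_flow (hf : ContDiff ℝ ∞ f) (hc : HasCompactSupport f) (x : E) (t : ℝ) :
    HasDerivAt (fun t => flow f t x) (f (flow f t x)) t := by
  have : CompleteSpace E := FiniteDimensional.complete ℝ E
  obtain ⟨B, K, hb, hl⟩ := exists_bl hf hc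
  exact hasDerivAt_flow_of_bl hb hl x t

theorem flow_add (hf : ContDiff ℝ ∞ f) (hc : HasCompactSupport f) (s t : ℝ) (x : E) :
    flow f (s + t) x = flow f s (flow f t x) := by
  have : CompleteSpace E := FiniteDimensional.complete ℝ E
  obtain ⟨B, K, hb, hl⟩ := exists_bl hf hc
  exact flow_add_of_bl hb hl s t x

/-- uniqueness: a solution on an open interval around `0` is the flow curve. -/
theorem eqOn_flow (hf : ContDiff ℝ ∞ f) (hc : HasCompactSupport f) {a b : ℝ}
    (h0 : (0 : ℝ) ∈ Ioo a b) {α : ℝ → E} (hα : ∀ t ∈ Ioo a b, HasDerivAt α (f (α t)) t) :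
    EqOn α (fun t => flow f t (α 0)) (Ioo a b) := by
  have : CompleteSpace E := FiniteDimensional.complete ℝ E
  obtain ⟨B, K, hb, hl⟩ := exists_bl hf hc
  exact eqOn_flow_of_bl hb hl h0 hα

/-- uniqueness on a compact interval `[a,b] ∋ 0` (possibly degenerate), one-sided derivatives at
the end points. -/
theorem eqOn_flow_Icc (hf : ContDiff ℝ ∞ f) (hc : HasCompactSupport f) {a b : ℝ}
    (ha : a ≤ 0) (hb : 0 ≤ b) {α : ℝ → E}
    (hα : ∀ t ∈ Icc a b, HasDerivWithinAt α (f (α t)) (Icc a b) t) :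
    EqOn α (fun t => flow f t (α 0)) (Icc a b) := by
  have : CompleteSpace E := FiniteDimensional.complete ℝ E
  obtain ⟨B, K, hbd, hl⟩ := exists_bl hf hc
  have hcont : ContinuousOn α (Icc a b) := fun t ht => (hα t ht).continuousWithinAt
  have hfc : Continuous (fun t => flow f t (α 0)) :=
    continuous_iff_continuousAt.2 fun t => (hasDerivAt_flow_of_bl hbd hl (α 0) t).continuousAt
  have hR : EqOn α (fun t => flow f t (α 0)) (Icc 0 b) := by
    refine ODE_solution_unique_of_mem_Icc_right (v := fun _ => f) (s := fun _ => univ) (K := K)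
      (fun _ _ => hl.lipschitzOnWith) (hcont.mono (Icc_subset_Icc ha le_rfl)) ?_
      (fun _ _ => mem_univ _) hfc.continuousOn
      (fun t _ => (hasDerivAt_flow_of_bl hbd hl (α 0) t).hasDerivWithinAt)
      (fun _ _ => mem_univ _) (flow_zero_of_bl hbd hl _).symm
    intro t ht
    exact (hα t ⟨ha.trans ht.1, ht.2.le⟩).mono_of_mem_nhdsWithin
      (Icc_mem_nhdsGE_of_mem ⟨ha.trans ht.1, ht.2⟩)
  have hL : EqOn α (fun t => flow f t (α 0)) (Icc a 0) := by
    refine ODE_solution_unique_of_mem_Icc_left (v := fun _ => f) (s := fun _ => univ) (K := K)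
      (fun _ _ => hl.lipschitzOnWith) (hcont.mono (Icc_subset_Icc le_rfl hb)) ?_
      (fun _ _ => mem_univ _) hfc.continuousOn
      (fun t _ => (hasDerivAt_flow_of_bl hbd hl (α 0) t).hasDerivWithinAt)
      (fun _ _ => mem_univ _) (flow_zero_of_bl hbd hl _).symm
    intro t ht
    exact (hα t ⟨ht.1.le, ht.2.trans hb⟩).mono_of_mem_nhdsWithin
      (Icc_mem_nhdsLE_of_mem ⟨ht.1, ht.2.trans hb⟩)
  intro t ht
  rcases le_total 0 t with h | h
  · exact hR ⟨h, ht.2⟩
  · exact hL ⟨ht.1, h⟩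

/-- **Smooth dependence**: the flow of a smooth compactly supported field is jointly smooth. -/
theorem contDiff_flow (hf : ContDiff ℝ ∞ f) (hc : HasCompactSupport f) :
    ContDiff ℝ ∞ (fun p : ℝ × E => flow f p.1 p.2) :=
  contDiff_flow_joint hf hc

/-- Cut-off of a field which is smooth on an open set, near a compact subset. -/
theorem exists_cutoff_field {U : Set E} (hU : IsOpen U) {X : E → E} (hX : ContDiffOn ℝ ∞ X U)
    {C : Set E} (hC : IsCompact C) (hCU : C ⊆ U) :
    ∃ f : E → E, ContDiff ℝ ∞ f ∧ HasCompactSupport f ∧ tsupport f ⊆ U ∧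
      ∃ V : Set E, IsOpen V ∧ C ⊆ V ∧ V ⊆ U ∧ EqOn f X V := by
  have : ProperSpace E := FiniteDimensional.proper_real E
  obtain ⟨V, hVo, hCV, hVU, hVc⟩ := exists_open_between_and_isCompact_closure hC hU hCU
  obtain ⟨V₁, hV₁o, hCV₁, hV₁V, -⟩ := exists_open_between_and_isCompact_closure hC hVo hCV
  obtain ⟨b, hb0, hb1, -⟩ := exists_contMDiffMap_zero_one_of_isClosed (n := ⊤)
    (modelWithCornersSelf ℝ E)
    hVo.isClosed_compl (isClosed_closure (s := V₁)) (disjoint_compl_left_iff_subset.2 hV₁V)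
  have hbs : ContDiff ℝ ∞ (b : E → ℝ) := contMDiff_iff_contDiff.1 b.contMDiff
  have hzero : ∀ x, x ∉ V → b x = 0 := fun x hx => hb0 hx
  have hsupp : Function.support (fun x ↦ b x • X x) ⊆ V := by
    intro x hx
    by_contra h
    apply hx
    simp [hzero x h]
  have hts : tsupport (fun x ↦ b x • X x) ⊆ closure V := closure_mono hsupp
  refine ⟨fun x ↦ b x • X x, ?_, ?_, hts.trans hVU, V₁, hV₁o, hCV₁,
    (subset_closure.trans hV₁V).trans (subset_closure.trans hVU), ?_⟩
  · rw [contDiff_iff_contDiffAt]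
    intro x
    by_cases hx : x ∈ U
    · exact hbs.contDiffAt.smul (hX.contDiffAt (hU.mem_nhds hx))
    · have hx' : x ∈ (closure V)ᶜ := fun h => hx (hVU h)
      have hev : (fun x ↦ b x • X x) =ᶠ[𝓝 x] fun _ => (0 : E) := by
        filter_upwards [isClosed_closure.isOpen_compl.mem_nhds hx'] with y hy
        rw [hzero y (fun h => hy (subset_closure h)), zero_smul]
      exact contDiffAt_const.congr_of_eventuallyEq hev
  · exact HasCompactSupport.of_support_subset_isCompact hVc (hsupp.trans subset_closure)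
  · intro x hx
    have : b x = 1 := hb1 (subset_closure hx)
    simp [this]

/-- **Long-time local flow.**  Let `X` be smooth on the open set `U` and let `γ` be an integral
curve of `X` in `U` on the compact interval `[a,b] ∋ 0`.  Then there are a globally defined, jointly
smooth `φ : ℝ → E → E`, an open neighbourhood `W` of `γ 0` and `ε > 0` such that for `x ∈ W` the
curve `t ↦ φ t x` is an integral curve of `X` in `U` on `(a-ε, b+ε)` starting at `x`;
and `φ t (γ 0) = γ t` on `[a,b]`. -/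
theorem exists_local_flow {U : Set E} (hU : IsOpen U) {X : E → E} (hX : ContDiffOn ℝ ∞ X U)
    {γ : ℝ → E} {a b : ℝ} (ha : a ≤ 0) (hb : 0 ≤ b) (hγU : ∀ t ∈ Icc a b, γ t ∈ U)
    (hγ : ∀ t ∈ Icc a b, HasDerivWithinAt γ (X (γ t)) (Icc a b) t) :
    ∃ (φ : ℝ → E → E) (W : Set E) (ε : ℝ), 0 < ε ∧ IsOpen W ∧ γ 0 ∈ W ∧
      ContDiff ℝ ∞ (fun p : ℝ × E => φ p.1 p.2) ∧ (∀ x, φ 0 x = x) ∧
      (∀ s t x, φ (s + t) x = φ s (φ t x)) ∧
      (∀ x ∈ W, ∀ t ∈ Ioo (a - ε) (b + ε),
        φ t x ∈ U ∧ HasDerivAt (fun t => φ t x) (X (φ t x)) t) ∧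
      ∀ t ∈ Icc a b, φ t (γ 0) = γ t := by
  have hcont : ContinuousOn γ (Icc a b) := fun t ht => (hγ t ht).continuousWithinAt
  have hC : IsCompact (γ '' Icc a b) := isCompact_Icc.image_of_continuousOn hcont
  have hCU : γ '' Icc a b ⊆ U := by
    rintro _ ⟨t, ht, rfl⟩
    exact hγU t ht
  obtain ⟨f, hf, hc, -, V, hVo, hCV, hVU, hfX⟩ := exists_cutoff_field hU hX hC hCU
  have hγV : ∀ t ∈ Icc a b, γ t ∈ V := fun t ht => hCV ⟨t, ht, rfl⟩
  have heq : EqOn γ (fun t => flow f t (γ 0)) (Icc a b) := by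
    refine eqOn_flow_Icc hf hc ha hb fun t ht => ?_
    rw [hfX (hγV t ht)]
    exact hγ t ht
  have hsm := contDiff_flow hf hc
  have hO : IsOpen {p : ℝ × E | flow f p.1 p.2 ∈ V} := hVo.preimage hsm.continuous
  have hsub : Icc a b ×ˢ ({γ 0} : Set E) ⊆ {p : ℝ × E | flow f p.1 p.2 ∈ V} := by
    rintro ⟨t, x⟩ ⟨ht, hx⟩
    have hx' : x = γ 0 := hx
    show flow f t x ∈ V
    have h2 : γ t = flow f t (γ 0) := heq ht
    rw [hx', ← h2]
    exact hγV t ht
  obtain ⟨u, W, huo, hWo, hIu, hxW, huW⟩ :=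
    generalized_tube_lemma isCompact_Icc isCompact_singleton hO hsub
  obtain ⟨ε, hε, hthick⟩ := isCompact_Icc.exists_thickening_subset_open huo hIu
  have hIoo : Ioo (a - ε) (b + ε) ⊆ u := by
    intro t ht
    apply hthick
    rw [mem_thickening_iff]
    rcases lt_or_ge t a with h1 | h1
    · exact ⟨a, ⟨le_rfl, ha.trans hb⟩, by
        rw [Real.dist_eq, abs_lt]; constructor <;> linarith [ht.1]⟩
    · rcases le_or_gt t b with h2 | h2
      · exact ⟨t, ⟨h1, h2⟩, by simpa using hε⟩
      · exact ⟨b, ⟨ha.trans hb, le_rfl⟩, by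
          rw [Real.dist_eq, abs_lt]; constructor <;> linarith [ht.2]⟩
  refine ⟨flow f, W, ε, hε, hWo, hxW rfl, hsm, flow_zero hf hc, flow_add hf hc, ?_, ?_⟩
  · intro x hx t ht
    have hV : flow f t x ∈ V := huW (show (t, x) ∈ u ×ˢ W from ⟨hIoo ht, hx⟩)
    refine ⟨hVU hV, ?_⟩
    rw [← hfX hV]
    exact hasDerivAt_flow hf hc x t
  · intro t ht
    exact (heq ht).symm

end Claimed.Agent.R213.Flow
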