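import Claimed.Agent.R213.Flow.Basic

set_option autoImplicit false

/-!
# Row 213, generic ODE part: the first prolongation and the `C¹` step

For a smooth compactly supported field `f` on a finite dimensional space `E` the spatial
derivative of `flow f t` at `x` is the second component of the flow of the cut-off prolongation
`prol f χ (x, A) = χ A • (f x, Df x ∘ A)` on `E × (E →L[ℝ] E)` started at `(x, id)`.
-/

namespace Claimed.Agent.R213.Flow

open Set Filter Topology Metric
open scoped ContDiff NNReal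

variable {E : Type*} [NormedAddCommGroup E] [NormedSpace ℝ E]

/-- a smooth compactly supported field is bounded and Lipschitz. -/
theorem exists_bl {F : Type*} [NormedAddCommGroup F] [NormedSpace ℝ F] {f : E → F}
    (hf : ContDiff ℝ ∞ f) (hc : HasCompactSupport f) :
    ∃ B K : ℝ≥0, (∀ x, ‖f x‖ ≤ B) ∧ LipschitzWith K f := by
  obtain ⟨L, hL⟩ := hc.exists_bound_of_continuous hf.continuous
  obtain ⟨K, hK⟩ := (hf.of_le (m := 1) (by simp)).lipschitzWith_of_hasCompactSupport hc one_ne_zero
  exact ⟨⟨max L 0, le_max_right _ _⟩, K, fun x => (hL x).trans (le_max_left _ _), hK⟩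

/-- a smooth compactly supported cut-off equal to `1` on a given ball. -/
theorem exists_cutoff_ball (V : Type*) [NormedAddCommGroup V] [NormedSpace ℝ V]
    [FiniteDimensional ℝ V] (R : ℝ) :
    ∃ χ : V → ℝ, ContDiff ℝ ∞ χ ∧ HasCompactSupport χ ∧ (∀ v, 0 ≤ χ v ∧ χ v ≤ 1) ∧
      ∀ v, ‖v‖ ≤ R → χ v = 1 := by
  let b : ContDiffBump (0 : V) := ⟨max R 0 + 1, max R 0 + 2, by positivity, by linarith⟩
  refine ⟨b, b.contDiff, b.hasCompactSupport, fun v => ⟨b.nonneg, b.le_one⟩, fun v hv => ?_⟩
  apply b.one_of_mem_closedBall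
  rw [mem_closedBall_zero_iff]
  have : R ≤ max R 0 := le_max_left _ _
  show ‖v‖ ≤ max R 0 + 1
  linarith

/-- second order Taylor remainder. -/
theorem norm_taylor_two_le {f : E → E} (hf : Differentiable ℝ f) {M : ℝ≥0}
    (hM : LipschitzWith M (fderiv ℝ f)) (a b : E) :
    ‖f b - f a - fderiv ℝ f a (b - a)‖ ≤ M * ‖b - a‖ ^ 2 := by
  have := Convex.norm_image_sub_le_of_norm_fderiv_le' (𝕜 := ℝ) (f := f) (φ := fderiv ℝ f a)
    (s := closedBall a ‖b - a‖) (C := M * ‖b - a‖) (x := a) (y := b) (fun x _ => hf x)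
    (fun x hx => by
      have h1 := hM.norm_sub_le x a
      have h2 : ‖x - a‖ ≤ ‖b - a‖ := by
        rw [← dist_eq_norm]; exact hx
      exact h1.trans (mul_le_mul_of_nonneg_left h2 M.2))
    (convex_closedBall _ _) (mem_closedBall_self (norm_nonneg _))
    (by rw [mem_closedBall, dist_eq_norm])
  calc _ ≤ M * ‖b - a‖ * ‖b - a‖ := this
    _ = _ := by ring

theorem gronwallBound_zero_eq_mul (K ε x : ℝ) :
    gronwallBound 0 K ε x = ε * gronwallBound 0 K 1 x := by
  by_cases hK : K = 0
  · subst hK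
    simp [gronwallBound_K0]
  · simp only [gronwallBound_of_K_ne_0 hK]
    ring

/-- The cut-off first prolongation of the field `f`. -/
noncomputable def prol (f : E → E) (χ : (E →L[ℝ] E) → ℝ) (p : E × (E →L[ℝ] E)) :
    E × (E →L[ℝ] E) :=
  χ p.2 • (f p.1, (fderiv ℝ f p.1).comp p.2)

theorem contDiff_prol {f : E → E} {χ : (E →L[ℝ] E) → ℝ} (hf : ContDiff ℝ ∞ f)
    (hχ : ContDiff ℝ ∞ χ) : ContDiff ℝ ∞ (prol f χ) := by
  have h1 : ContDiff ℝ ∞ (fderiv ℝ f) := (contDiff_infty_iff_fderiv.1 hf).2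
  unfold prol
  exact (hχ.comp contDiff_snd).smul ((hf.comp contDiff_fst).prodMk
    ((h1.comp contDiff_fst).clm_comp contDiff_snd))

theorem hasCompactSupport_prol {f : E → E} {χ : (E →L[ℝ] E) → ℝ} (hc : HasCompactSupport f)
    (hχ : HasCompactSupport χ) : HasCompactSupport (prol f χ) := by
  refine HasCompactSupport.of_support_subset_isCompact (hc.isCompact.prod hχ.isCompact) ?_
  intro p hp
  refine ⟨?_, ?_⟩
  · by_contra h
    apply hp
    have h1 : f p.1 = 0 := image_eq_zero_of_notMem_tsupport h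
    have h2 : fderiv ℝ f p.1 = 0 := by
      by_contra h3
      exact h (support_fderiv_subset ℝ h3)
    simp [prol, h1, h2]
  · by_contra h
    apply hp
    have h1 : χ p.2 = 0 := image_eq_zero_of_notMem_tsupport h
    simp [prol, h1]

end Claimed.Agent.R213.Flow
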