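import Claimed.Agent.R213.Flow.COne

set_option autoImplicit false

/-!
# Row 213, generic ODE part: smoothness of the flow

Induction on the order of differentiability (over all finite dimensional spaces at once) for the
time-`t` maps, and the time-scaling trick for the joint smoothness.
-/

namespace Claimed.Agent.R213.Flow

open Set Filter Topology Metric
open scoped ContDiff NNReal

universe u

/-- the time-`t` map of the flow is `C^k`, for all `k`, all spaces and all fields. -/
theorem contDiff_flow_time_nat (k : ℕ) : ∀ (E : Type u) [NormedAddCommGroup E] [NormedSpace ℝ E]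
    [FiniteDimensional ℝ E] (f : E → E), ContDiff ℝ ∞ f → HasCompactSupport f →
    ∀ t : ℝ, ContDiff ℝ k (flow f t) := by
  induction k with
  | zero =>
    intro E _ _ _ f hf hc t
    have : CompleteSpace E := FiniteDimensional.complete ℝ E
    obtain ⟨B, K, hb, hl⟩ := exists_bl hf hc
    rw [Nat.cast_zero, contDiff_zero]
    exact (continuous_flow_of_bl hb hl).comp (Continuous.prodMk_right t)
  | succ k ih =>
    intro E _ _ _ f hf hc t
    obtain ⟨B, K, hb, hl⟩ := exists_bl hf hc
    obtain ⟨χ, hχ, hχc, h01, h1⟩ := exists_cutoff_ball (E →L[ℝ] E) (Real.exp (K * (|t| + 1)))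
    have hd : ∀ x, HasFDerivAt (flow f t)
        (flow (prol f χ) t (x, ContinuousLinearMap.id ℝ E)).2 x := fun x =>
      hasFDerivAt_flow hf hc hχ hχc h01 hl h1 x (lt_add_one |t|)
    have h2 : ContDiff ℝ ((k : ℕ∞ω) + 1) (flow f t) := by
      rw [contDiff_succ_iff_fderiv]
      refine ⟨fun x => (hd x).differentiableAt, ?_, ?_⟩
      · intro h
        exact absurd h (by simp)
      · have e : fderiv ℝ (flow f t) =
            fun x => (flow (prol f χ) t (x, ContinuousLinearMap.id ℝ E)).2 :=
          funext fun x => (hd x).fderiv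
        rw [e]
        exact contDiff_snd.comp
          ((ih (E × (E →L[ℝ] E)) (prol f χ) (contDiff_prol hf hχ)
            (hasCompactSupport_prol hc hχc) t).comp (contDiff_id.prodMk contDiff_const))
    exact_mod_cast h2

variable {E : Type u} [NormedAddCommGroup E] [NormedSpace ℝ E] [FiniteDimensional ℝ E]
  {f : E → E}

/-- the time-`t` map of the flow is smooth. -/
theorem contDiff_flow_time (hf : ContDiff ℝ ∞ f) (hc : HasCompactSupport f) (t : ℝ) :
    ContDiff ℝ ∞ (flow f t) :=
  contDiff_infty.2 fun k => contDiff_flow_time_nat k E f hf hc t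

/-- The field on `ℝ × E` whose time-one map is `(s, x) ↦ (s, flow f (ρ s * s) x)`. -/
noncomputable def tfield (f : E → E) (ρ : ℝ → ℝ) (p : ℝ × E) : ℝ × E :=
  (0, (ρ p.1 * p.1) • f p.2)

omit [FiniteDimensional ℝ E] in
theorem contDiff_tfield {ρ : ℝ → ℝ} (hf : ContDiff ℝ ∞ f) (hρ : ContDiff ℝ ∞ ρ) :
    ContDiff ℝ ∞ (tfield f ρ) := by
  unfold tfield
  exact contDiff_const.prodMk
    (((hρ.comp contDiff_fst).mul contDiff_fst).smul (hf.comp contDiff_snd))

omit [FiniteDimensional ℝ E] in
theorem hasCompactSupport_tfield {ρ : ℝ → ℝ} (hc : HasCompactSupport f)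
    (hρ : HasCompactSupport ρ) : HasCompactSupport (tfield f ρ) := by
  refine HasCompactSupport.of_support_subset_isCompact (hρ.isCompact.prod hc.isCompact) ?_
  intro p hp
  refine ⟨?_, ?_⟩
  · by_contra h
    apply hp
    have h1 : ρ p.1 = 0 := image_eq_zero_of_notMem_tsupport h
    simp [tfield, h1]
  · by_contra h
    apply hp
    have h1 : f p.2 = 0 := image_eq_zero_of_notMem_tsupport h
    simp [tfield, h1]

theorem flow_tfield {ρ : ℝ → ℝ} (hf : ContDiff ℝ ∞ f) (hc : HasCompactSupport f)
    (hρ : ContDiff ℝ ∞ ρ) (hρc : HasCompactSupport ρ) (τ s : ℝ) (x : E) :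
    flow (tfield f ρ) τ (s, x) = (s, flow f (τ * (ρ s * s)) x) := by
  have : CompleteSpace E := FiniteDimensional.complete ℝ E
  obtain ⟨B, K, hb, hl⟩ := exists_bl hf hc
  obtain ⟨B', K', hb', hl'⟩ := exists_bl (contDiff_tfield hf hρ) (hasCompactSupport_tfield hc hρc)
  have h : ∀ τ, HasDerivAt (fun τ : ℝ => ((s, flow f (τ * (ρ s * s)) x) : ℝ × E))
      (tfield f ρ (s, flow f (τ * (ρ s * s)) x)) τ := by
    intro τ
    have h1 : HasDerivAt (fun τ : ℝ => flow f (τ * (ρ s * s)) x)
        ((ρ s * s) • f (flow f (τ * (ρ s * s)) x)) τ :=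
      HasDerivAt.scomp (g₁ := fun r => flow f r x) (h := fun τ : ℝ => τ * (ρ s * s)) τ
        (hasDerivAt_flow_of_bl hb hl x (τ * (ρ s * s))) (hasDerivAt_mul_const (ρ s * s))
    exact (hasDerivAt_const τ s).prodMk h1
  have := eq_flow_of_bl hb' hl' h τ
  simp only [zero_mul, flow_zero_of_bl hb hl] at this
  exact this.symm

/-- **Smooth dependence**: the flow of a smooth compactly supported field is jointly smooth. -/
theorem contDiff_flow_joint (hf : ContDiff ℝ ∞ f) (hc : HasCompactSupport f) :
    ContDiff ℝ ∞ (fun p : ℝ × E => flow f p.1 p.2) := by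
  rw [contDiff_iff_contDiffAt]
  rintro ⟨s₀, x₀⟩
  obtain ⟨ρ, hρ, hρc, -, h1⟩ := exists_cutoff_ball ℝ (|s₀| + 1)
  have hsm : ContDiff ℝ ∞ (fun p : ℝ × E => (flow (tfield f ρ) 1 p).2) :=
    contDiff_snd.comp
      (contDiff_flow_time (contDiff_tfield hf hρ) (hasCompactSupport_tfield hc hρc) 1)
  refine hsm.contDiffAt.congr_of_eventuallyEq ?_
  have hopen : IsOpen {p : ℝ × E | |p.1| < |s₀| + 1} :=
    isOpen_lt (continuous_abs.comp continuous_fst) continuous_const
  filter_upwards [hopen.mem_nhds (show |s₀| < |s₀| + 1 from lt_add_one _)] with p hp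
  obtain ⟨s, x⟩ := p
  have hs : ρ s = 1 := h1 s (by rw [Real.norm_eq_abs]; exact le_of_lt hp)
  rw [flow_tfield hf hc hρ hρc, hs]
  simp

end Claimed.Agent.R213.Flow
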