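import Claimed.Agent.R213.Flow.Main

set_option autoImplicit false

/-!
# Row 213, generic ODE part: variational equation, uniqueness around any time, inverse maps
-/

namespace Claimed.Agent.R213.Flow

open Set Filter Topology Metric
open scoped ContDiff NNReal

variable {E : Type*} [NormedAddCommGroup E] [NormedSpace ℝ E] [FiniteDimensional ℝ E]
  {f : E → E}

theorem differentiable_flow_time (hf : ContDiff ℝ ∞ f) (hc : HasCompactSupport f) (t : ℝ) :
    Differentiable ℝ (flow f t) :=
  (contDiff_flow_time hf hc t).differentiable (by simp)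

/-- **Variational equation**, operator form. -/
theorem hasDerivAt_fderiv_flow (hf : ContDiff ℝ ∞ f) (hc : HasCompactSupport f) (x : E) (t : ℝ) :
    HasDerivAt (fun s => fderiv ℝ (flow f s) x)
      ((fderiv ℝ f (flow f t x)).comp (fderiv ℝ (flow f t) x)) t := by
  obtain ⟨B, K, hb, hl⟩ := exists_bl hf hc
  obtain ⟨χ, hχ, hχc, h01, h1⟩ := exists_cutoff_ball (E →L[ℝ] E) (Real.exp (K * (|t| + 1)))
  have hd : ∀ s, |s| < |t| + 1 → fderiv ℝ (flow f s) x =
      (flow (prol f χ) s (x, ContinuousLinearMap.id ℝ E)).2 := fun s hs =>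
    (hasFDerivAt_flow hf hc hχ hχc h01 hl h1 x hs).fderiv
  have h2 := hasDerivAt_flow_prol_snd' hf hc hχ hχc h01 hl h1 x (lt_add_one |t|)
  rw [← hd t (lt_add_one |t|)] at h2
  refine h2.congr_of_eventuallyEq ?_
  have hopen : IsOpen {s : ℝ | |s| < |t| + 1} := isOpen_lt continuous_abs continuous_const
  filter_upwards [hopen.mem_nhds (show |t| < |t| + 1 from lt_add_one _)] with s hs
  exact hd s hs

/-- **Variational equation**, applied to a vector. -/
theorem hasDerivAt_fderiv_flow_apply (hf : ContDiff ℝ ∞ f) (hc : HasCompactSupport f) (x q : E)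
    (t : ℝ) :
    HasDerivAt (fun s => fderiv ℝ (flow f s) x q)
      (fderiv ℝ f (flow f t x) (fderiv ℝ (flow f t) x q)) t := by
  have := (hasDerivAt_fderiv_flow hf hc x t).clm_apply (hasDerivAt_const t q)
  simpa using this

theorem flow_zero_eq_id (hf : ContDiff ℝ ∞ f) (hc : HasCompactSupport f) : flow f 0 = id :=
  funext fun x => flow_zero hf hc x

theorem fderiv_flow_zero (hf : ContDiff ℝ ∞ f) (hc : HasCompactSupport f) (x : E) :
    fderiv ℝ (flow f 0) x = ContinuousLinearMap.id ℝ E := by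
  rw [flow_zero_eq_id hf hc]
  exact fderiv_id

theorem flow_neg_flow (hf : ContDiff ℝ ∞ f) (hc : HasCompactSupport f) (t : ℝ) (x : E) :
    flow f (-t) (flow f t x) = x := by
  rw [← flow_add hf hc, neg_add_cancel, flow_zero hf hc]

theorem flow_flow_neg (hf : ContDiff ℝ ∞ f) (hc : HasCompactSupport f) (t : ℝ) (x : E) :
    flow f t (flow f (-t) x) = x := by
  rw [← flow_add hf hc, add_neg_cancel, flow_zero hf hc]

/-- uniqueness around an arbitrary initial time `t₀`. -/
theorem eqOn_flow_sub (hf : ContDiff ℝ ∞ f) (hc : HasCompactSupport f) {a b t₀ : ℝ}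
    (h0 : t₀ ∈ Ioo a b) {α : ℝ → E} (hα : ∀ t ∈ Ioo a b, HasDerivAt α (f (α t)) t) :
    EqOn α (fun t => flow f (t - t₀) (α t₀)) (Ioo a b) := by
  intro t ht
  have h := eqOn_flow hf hc (a := a - t₀) (b := b - t₀) ⟨by linarith [h0.1], by linarith [h0.2]⟩
    (α := fun s => α (s + t₀))
    (fun s hs => (hα (s + t₀) ⟨by linarith [hs.1], by linarith [hs.2]⟩).comp_add_const s t₀)
    (x := t - t₀) ⟨by linarith [ht.1], by linarith [ht.2]⟩
  simpa using h

/-- two solutions on an open interval which agree at one time agree everywhere. -/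
theorem eqOn_of_sol (hf : ContDiff ℝ ∞ f) (hc : HasCompactSupport f) {a b t₀ : ℝ}
    (h0 : t₀ ∈ Ioo a b) {α β : ℝ → E} (hα : ∀ t ∈ Ioo a b, HasDerivAt α (f (α t)) t)
    (hβ : ∀ t ∈ Ioo a b, HasDerivAt β (f (β t)) t) (h : α t₀ = β t₀) : EqOn α β (Ioo a b) := by
  intro t ht
  rw [eqOn_flow_sub hf hc h0 hα ht, eqOn_flow_sub hf hc h0 hβ ht, h]

/-- the joint derivative of the flow. -/
theorem hasFDerivAt_flow_joint (hf : ContDiff ℝ ∞ f) (hc : HasCompactSupport f) (t : ℝ) (x : E) :
    HasFDerivAt (fun p : ℝ × E => flow f p.1 p.2)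
      ((ContinuousLinearMap.toSpanSingleton ℝ (f (flow f t x))).coprod (fderiv ℝ (flow f t) x))
      (t, x) := by
  have hd : DifferentiableAt ℝ (fun p : ℝ × E => flow f p.1 p.2) (t, x) :=
    ((contDiff_flow hf hc).differentiable (by simp)) (t, x)
  have h := hd.hasFDerivAt
  have e : fderiv ℝ (fun p : ℝ × E => flow f p.1 p.2) (t, x) =
      (ContinuousLinearMap.toSpanSingleton ℝ (f (flow f t x))).coprod
        (fderiv ℝ (flow f t) x) := by
    apply ContinuousLinearMap.ext
    rintro ⟨τ, ξ⟩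
    have h1 : HasDerivAt (fun s => flow f s x)
        (fderiv ℝ (fun p : ℝ × E => flow f p.1 p.2) (t, x) (1, 0)) t := by
      have := h.comp_hasDerivAt t ((hasDerivAt_id t).prodMk (hasDerivAt_const t x))
      simpa [Function.comp_def] using this
    have h1' := h1.unique (hasDerivAt_flow hf hc x t)
    have h2 : HasFDerivAt (flow f t)
        ((fderiv ℝ (fun p : ℝ × E => flow f p.1 p.2) (t, x)).comp
          (ContinuousLinearMap.inr ℝ ℝ E)) x := by
      have := h.comp x (hasFDerivAt_prodMk_right t x)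
      simpa [Function.comp_def] using this
    have h2' := h2.fderiv
    have e1 : ((τ, ξ) : ℝ × E) = τ • ((1 : ℝ), (0 : E)) + ContinuousLinearMap.inr ℝ ℝ E ξ := by
      simp
    rw [e1, map_add, map_smul, h1', h2']
    simp
  rwa [e] at h

end Claimed.Agent.R213.Flow
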